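import Mathlib
import Vale.Agent.P110.Full.Assembly.Cover
import Vale.Agent.P110.Full.Assembly.Vectors
import Vale.Agent.P130.Full.Core.Defs

/-!
Blocks of the cells of `ZMod P`, `P = 2 * q * W * Q`, and the oriented colours owning them.
-/

noncomputable section

namespace Vale.Agent.P130.Full.Core

open Finset
open Vale.Agent.P110.Full (block_eq block_neg)

variable {R q W P : ℕ}

theorem Colours.has_anti {C : Colours R} {o : ZMod (2 * q) → C.Col × Bool}
    (ho : C.AntiOwner q o) (B : ZMod (2 * q)) (v : Fin R → ℤ) :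
    C.Has (o (-1 - B)) v ↔ C.Has (o B) (-v) := by
  unfold Colours.Has
  rw [ho B]
  cases (o B).2 <;> simp

theorem Colours.mem_of_prob_pos (C : Colours R) {v : Fin R → ℤ} (h : 0 < C.prob v) :
    ∃ c, v ∈ C.mem c := by
  by_contra hne
  push Not at hne
  simp [Colours.prob, hne] at h

theorem Colours.prob_neg (C : Colours R) (v : Fin R → ℤ) : C.prob (-v) = C.prob v := C.symm v

theorem Colours.exists_positive (C : Colours R) :
    ∃ (u : Fin R → ℤ) (N : ℕ) (v : Fin N → Fin R → ℤ),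
      (∀ x, 0 < C.prob x → ∑ l, x l * u l ≠ 0) ∧
      (∀ i, 0 < C.prob (v i) ∧ 0 < ∑ l, v i l * u l) ∧ Function.Injective v ∧
      ∀ x, 0 < C.prob x → 0 < ∑ l, x l * u l → ∃ i, v i = x := by
  classical
  have := C.fintype
  set V := (univ.biUnion C.mem).filter fun x => 0 < C.prob x with hV
  have hV' : ∀ x, x ∈ V ↔ 0 < C.prob x := fun x => by
    simp only [hV, mem_filter, mem_biUnion, mem_univ, true_and]
    exact ⟨fun h => h.2, fun h => ⟨C.mem_of_prob_pos h, h⟩⟩
  have hne : ∀ x : V, (x : Fin R → ℤ) ≠ 0 := by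
    intro x hx
    obtain ⟨c, hc⟩ := C.mem_of_prob_pos ((hV' _).1 x.2)
    obtain ⟨ξ, hξ⟩ := C.primitive c _ hc
    simp [hx] at hξ
  obtain ⟨u, hu⟩ := P110.Full.exists_generic_vector (fun x : V => (x : Fin R → ℤ)) hne
  set Vp := V.filter fun x => 0 < ∑ l, x l * u l with hVp
  refine ⟨u, Vp.card, fun i => (Vp.equivFin.symm i : Fin R → ℤ),
    fun x hx => hu ⟨x, (hV' x).2 hx⟩, fun i => ?_,
    fun i j h => Vp.equivFin.symm.injective (Subtype.ext h), fun x hx hxu => ?_⟩
  · obtain ⟨h1, h2⟩ := mem_filter.1 (Vp.equivFin.symm i).2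
    exact ⟨(hV' _).1 h1, h2⟩
  · exact ⟨Vp.equivFin ⟨x, mem_filter.2 ⟨(hV' x).2 hx, hxu⟩⟩, by simp⟩

/-- The block of a cell. -/
def blk (q W : ℕ) {P : ℕ} (y : ZMod P) : ZMod (2 * q) := ((y.val / W : ℕ) : ZMod (2 * q))

theorem blk_of_cast [NeZero q] [NeZero P] (y : ZMod P) {B : ZMod (2 * q)}
    {x : ℕ} (hx : x < W)
    (h : ((y.val : ℕ) : ZMod (2 * q * W)) = ((W * B.val + x : ℕ) : ZMod (2 * q * W))) :
    blk q W y = B := by
  have hW : 0 < W := by omega
  have h1 : ((y.val : ℕ) : ZMod (2 * q * W)) =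
      ((W * ((y.val / W : ℕ) : ZMod (2 * q)).val + y.val % W : ℕ) : ZMod (2 * q * W)) := by
    rw [ZMod.val_natCast, ZMod.natCast_eq_natCast_iff']
    conv_lhs => rw [← Nat.div_add_mod y.val W]
    conv_rhs => rw [Nat.add_mod, ← Nat.mul_mod_mul_left, mul_comm W (2 * q), Nat.mod_mod,
      ← Nat.add_mod]
  rw [h1] at h
  exact (block_eq (Nat.mod_lt _ hW) hx h).1

/-- The block of a cell given by an integer. -/
theorem blk_intCast [NeZero q] [NeZero P] (hd : 2 * q * W ∣ P) (s : ℤ) {B : ZMod (2 * q)}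
    {x : ℕ} (hx : x < W)
    (h : (s : ZMod (2 * q * W)) = ((W * B.val + x : ℕ) : ZMod (2 * q * W))) :
    blk q W (s : ZMod P) = B := by
  refine blk_of_cast _ hx ?_
  rw [← h, ← Int.cast_natCast, ZMod.val_intCast, ZMod.intCast_eq_intCast_iff_dvd_sub]
  have h2 : s - s % (P : ℤ) = (P : ℤ) * (s / P) := by
    have := Int.mul_ediv_add_emod s P
    linarith
  rw [h2]
  exact (Int.natCast_dvd_natCast.2 hd).mul_right _

theorem blk_neg [NeZero q] [NeZero P] (hW : 0 < W) (hd : 2 * q * W ∣ P) (y : ZMod P) :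
    blk q W (-1 - y) = -1 - blk q W y := by
  have hy : ((y.val : ℕ) : ZMod (2 * q * W)) =
      ((W * (blk q W y).val + y.val % W : ℕ) : ZMod (2 * q * W)) := by
    rw [blk, ZMod.val_natCast, ZMod.natCast_eq_natCast_iff']
    conv_lhs => rw [← Nat.div_add_mod y.val W]
    conv_rhs => rw [Nat.add_mod, ← Nat.mul_mod_mul_left, mul_comm W (2 * q), Nat.mod_mod,
      ← Nat.add_mod]
  have h : (-1 - y) = ((-(y.val : ℤ) - 1 : ℤ) : ZMod P) := by
    push_cast
    rw [ZMod.natCast_zmod_val]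
    ring
  rw [h]
  refine blk_intCast hd _ (x := W - 1 - y.val % W) (by omega) ?_
  rw [← block_neg _ (Nat.mod_lt _ hW), ← hy]
  push_cast
  ring

/-- A cell is a period, a block and a place inside the block. -/
theorem exists_cells [NeZero q] [NeZero P] (hW : 0 < W) {Q : ℕ} (hP : P = 2 * q * W * Q) :
    ∃ e : (Fin Q × ZMod (2 * q)) × Fin W ≃ ZMod P, ∀ x, blk q W (e x) = x.1.2 := by
  set f : (Fin Q × ZMod (2 * q)) × Fin W → ZMod P := fun x =>
    ((W * (2 * q * (x.1.1 : ℕ) + x.1.2.val) + (x.2 : ℕ) : ℕ) : ZMod P) with hf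
  have hlt : ∀ x : (Fin Q × ZMod (2 * q)) × Fin W,
      W * (2 * q * (x.1.1 : ℕ) + x.1.2.val) + (x.2 : ℕ) < P := by
    intro x
    have h1 := x.1.1.2
    have h2 := x.1.2.val_lt
    have h3 := x.2.2
    have h4 : 2 * q * (x.1.1 : ℕ) + x.1.2.val + 1 ≤ 2 * q * Q := by
      calc _ ≤ 2 * q * ((x.1.1 : ℕ) + 1) := by rw [mul_add, mul_one]; omega
        _ ≤ _ := Nat.mul_le_mul_left _ h1
    calc _ < W * (2 * q * (x.1.1 : ℕ) + x.1.2.val + 1) := by rw [mul_add W _ 1, mul_one]; omega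
      _ ≤ W * (2 * q * Q) := Nat.mul_le_mul_left _ h4
      _ = P := by rw [hP]; ring
  have hval : ∀ x, (f x).val = W * (2 * q * (x.1.1 : ℕ) + x.1.2.val) + (x.2 : ℕ) := fun x =>
    ZMod.val_natCast_of_lt (hlt x)
  have hdiv : ∀ x, (f x).val / W = 2 * q * (x.1.1 : ℕ) + x.1.2.val := fun x => by
    rw [hval, Nat.mul_add_div hW, Nat.div_eq_of_lt x.2.2, add_zero]
  have hblk : ∀ x, blk q W (f x) = x.1.2 := fun x => by
    simp [blk, hdiv]
  have hinj : Function.Injective f := by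
    intro x x' h
    have h1 := hdiv x
    rw [h, hdiv x'] at h1
    have hB : x.1.2 = x'.1.2 := by rw [← hblk x, ← hblk x', h]
    have h2 : x.2 = x'.2 := by
      have := hval x
      rw [h, hval x', h1] at this
      exact Fin.ext (by omega)
    have hc : x.1.1 = x'.1.1 := by
      rw [hB] at h1
      have : 0 < 2 * q := Nat.mul_pos two_pos (NeZero.pos q)
      exact Fin.ext (Nat.eq_of_mul_eq_mul_left this (by omega))
    exact Prod.ext (Prod.ext hc hB) h2
  refine ⟨Equiv.ofBijective f ((Fintype.bijective_iff_injective_and_card f).2 ⟨hinj, ?_⟩), hblk⟩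
  simp only [Fintype.card_prod, Fintype.card_fin, ZMod.card, hP]
  ring

/-- The number of cells in a set of blocks. -/
theorem card_cells [NeZero q] [NeZero P] (hW : 0 < W) {Q : ℕ} (hP : P = 2 * q * W * Q)
    (S : ZMod (2 * q) → Prop) [DecidablePred S] :
    (univ.filter fun y : ZMod P => S (blk q W y)).card = Q * Nat.card {B // S B} * W := by
  obtain ⟨e, he⟩ := exists_cells (P := P) hW hP
  let e' : {x : (Fin Q × ZMod (2 * q)) × Fin W // S x.1.2} ≃ (Fin Q × {B // S B}) × Fin W :=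
    { toFun := fun x => ((x.1.1.1, ⟨x.1.1.2, x.2⟩), x.1.2)
      invFun := fun x => ⟨((x.1.1, x.1.2.1), x.2), x.1.2.2⟩
      left_inv := fun x => rfl
      right_inv := fun x => rfl }
  rw [← Fintype.card_subtype,
    ← Fintype.card_congr (e.subtypeEquiv (p := fun x => S x.1.2) fun x => by rw [he]),
    Fintype.card_congr e', Fintype.card_prod, Fintype.card_prod, Fintype.card_fin,
    Fintype.card_fin, Nat.card_eq_fintype_card]

end Vale.Agent.P130.Full.Core
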