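import Mathlib
import Vale.Agent.P110.Full.Assembly.Counts
import Vale.Agent.P130.Full.Core.Comb.Cells

/-!
The starts of the classes of a good group, and the number of good groups at a start.
-/

noncomputable section

namespace Vale.Agent.P130.Full.Core

open Finset
open Vale.Agent.P110.Full (block_eq StartsAt fibre_bounds class_close)

variable {I : Type} [Fintype I] {R q W : ℕ} [NeZero q]

/-- The aligned starts of class `i` in the blocks whose colour contains it. -/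
abbrev St (C : Colours R) (q W : ℕ) (o : ZMod (2 * q) → C.Col × Bool) (v : I → Fin R → ℤ)
    (w : I → ℕ) (i : I) : Type :=
  {B : ZMod (2 * q) // C.Has (o B) (v i)} × Fin (W / w i)

/-- The good groups, each taken `J` times. -/
abbrev GroupCopies (C : Colours R) (q W : ℕ) (v : I → Fin R → ℤ) (w : I → ℕ)
    (o : ZMod (2 * q) → C.Col × Bool) (J : ℕ) : Type :=
  {x : (Fin R → ZMod (2 * q)) × Fin W // Good C q W v w o x} × Fin J

variable {C : Colours R}

/-- The start of class `i` of a good group. -/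
def startOf (hW : 0 < W) (v : I → Fin R → ℤ) (w : I → ℕ) (hw : ∀ i, 0 < w i ∧ w i ∣ W)
    (o : ZMod (2 * q) → C.Col × Bool) (i : I)
    (x : {x : (Fin R → ZMod (2 * q)) × Fin W // Good C q W v w o x}) : St C q W o v w i :=
  (⟨(∑ l, (v i l : ZMod (2 * q)) * x.1.1 l) + ((w i * (x.1.2 : ℕ) / W : ℕ) : ZMod (2 * q)),
      x.2 i⟩,
    ⟨(x.1.2 : ℕ) % (W / w i),
      Nat.mod_lt _ (Nat.div_pos (Nat.le_of_dvd hW (hw i).2) (hw i).1)⟩)

omit [Fintype I] in
theorem startOf_cast (hW : 0 < W) (v : I → Fin R → ℤ) (w : I → ℕ)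
    (hw : ∀ i, 0 < w i ∧ w i ∣ W) (o : ZMod (2 * q) → C.Col × Bool) (i : I)
    (x : {x : (Fin R → ZMod (2 * q)) × Fin W // Good C q W v w o x}) :
    (((W : ℤ) * ∑ l, v i l * ((x.1.1 l).val : ℤ) + (w i * (x.1.2 : ℕ) : ℕ) : ℤ) :
        ZMod (2 * q * W)) =
      ((W * (startOf hW v w hw o i x).1.1.val + w i * (startOf hW v w hw o i x).2 : ℕ) :
        ZMod (2 * q * W)) := by
  set t := (x.1.2 : ℕ) with ht
  set h := W / w i with hh
  have hWh : w i * h = W := Nat.mul_div_cancel' (hw i).2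
  have hdiv : w i * t / W = t / h := by rw [← hWh, Nat.mul_div_mul_left _ _ (hw i).1]
  set B0 := (startOf hW v w hw o i x).1.1 with hB0
  have hB : ((B0.val : ℤ) : ZMod (2 * q)) =
      ((∑ l, v i l * ((x.1.1 l).val : ℤ) + (t / h : ℕ) : ℤ) : ZMod (2 * q)) := by
    rw [← hdiv]
    simp only [hB0, startOf, ht, Int.cast_natCast, Int.cast_add, Int.cast_sum, Int.cast_mul,
      ZMod.natCast_zmod_val]
  obtain ⟨d, hd⟩ := (ZMod.intCast_eq_intCast_iff_dvd_sub _ _ _).1 hB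
  have hl : ((startOf hW v w hw o i x).2 : ℕ) = t % h := rfl
  rw [hl, ← Int.cast_natCast (R := ZMod (2 * q * W)) (W * B0.val + w i * (t % h))]
  rw [ZMod.intCast_eq_intCast_iff_dvd_sub]
  refine ⟨-d, ?_⟩
  have h2 : (t : ℤ) = (t % h : ℕ) + (h : ℤ) * (t / h : ℕ) := by
    exact_mod_cast (Nat.mod_add_div t h).symm
  have h3 : (W : ℤ) = (w i : ℤ) * h := by exact_mod_cast hWh.symm
  push_cast at hd h2 ⊢
  linear_combination -(W : ℤ) * hd - (w i : ℤ) * h2 + ((t : ℤ) / (h : ℤ)) * h3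

omit [Fintype I] in
theorem mul_lt_of_fin (w : I → ℕ) (hw : ∀ i, 0 < w i ∧ w i ∣ W) (i : I) (l : Fin (W / w i))
    {t : ℕ} (ht : t < w i) : w i * (l : ℕ) + t < W :=
  calc w i * (l : ℕ) + t < w i * ((l : ℕ) + 1) := by rw [mul_add, mul_one]; omega
    _ ≤ w i * (W / w i) := Nat.mul_le_mul_left _ l.2
    _ = W := Nat.mul_div_cancel' (hw i).2

omit [Fintype I] in
theorem startOf_eq_iff (hW : 0 < W) (v : I → Fin R → ℤ) (w : I → ℕ)
    (hw : ∀ i, 0 < w i ∧ w i ∣ W) (o : ZMod (2 * q) → C.Col × Bool) (i : I)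
    (x : {x : (Fin R → ZMod (2 * q)) × Fin W // Good C q W v w o x}) (s : St C q W o v w i) :
    startOf hW v w hw o i x = s ↔
      StartsAt q W v w i x.1
        (((W : ℤ) * ((s.1 : ZMod (2 * q)).val : ℤ) + (w i * (s.2 : ℕ) : ℕ) : ℤ) :
          ZMod (2 * q * W)) := by
  have hlt : ∀ l : Fin (W / w i), w i * (l : ℕ) < W := fun l => by
    simpa using mul_lt_of_fin w hw i l (hw i).1
  have h1 : (((W : ℤ) * ((s.1 : ZMod (2 * q)).val : ℤ) + (w i * (s.2 : ℕ) : ℕ) : ℤ) :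
      ZMod (2 * q * W)) = ((W * (s.1 : ZMod (2 * q)).val + w i * (s.2 : ℕ) : ℕ) :
        ZMod (2 * q * W)) := by
    rw [← Int.cast_natCast (R := ZMod (2 * q * W)) (W * (s.1 : ZMod (2 * q)).val + _)]
    congr 1
  rw [StartsAt, h1, startOf_cast hW v w hw o i x]
  constructor
  · rintro rfl
    rfl
  · intro h
    obtain ⟨hB, hl⟩ := block_eq (hlt _) (hlt _) h
    exact Prod.ext (Subtype.ext hB) (Fin.ext (Nat.eq_of_mul_eq_mul_left (hw i).1 hl))

omit [Fintype I] in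
theorem card_fibre (hW : 0 < W) (v : I → Fin R → ℤ) (w : I → ℕ)
    (hw : ∀ i, 0 < w i ∧ w i ∣ W) (o : ZMod (2 * q) → C.Col × Bool) (J : ℕ) (i : I)
    (s : St C q W o v w i) [Fintype (GroupCopies C q W v w o J)]
    [DecidableEq (St C q W o v w i)] :
    (univ.filter fun y : GroupCopies C q W v w o J => startOf hW v w hw o i y.1 = s).card =
      Nat.card {x : (Fin R → ZMod (2 * q)) × Fin W // Good C q W v w o x ∧
        StartsAt q W v w i x
          (((W : ℤ) * ((s.1 : ZMod (2 * q)).val : ℤ) + (w i * (s.2 : ℕ) : ℕ) : ℤ) :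
            ZMod (2 * q * W))} * J := by
  let e : {y : GroupCopies C q W v w o J // startOf hW v w hw o i y.1 = s} ≃
      {x : (Fin R → ZMod (2 * q)) × Fin W // Good C q W v w o x ∧ StartsAt q W v w i x
          (((W : ℤ) * ((s.1 : ZMod (2 * q)).val : ℤ) + (w i * (s.2 : ℕ) : ℕ) : ℤ) :
            ZMod (2 * q * W))} × Fin J :=
    { toFun := fun y => (⟨y.1.1.1, y.1.1.2, (startOf_eq_iff hW v w hw o i _ s).1 y.2⟩, y.1.2)
      invFun := fun y => ⟨(⟨y.1.1, y.1.2.1⟩, y.2),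
        (startOf_eq_iff hW v w hw o i ⟨y.1.1, y.1.2.1⟩ s).2 y.1.2.2⟩
      left_inv := fun y => rfl
      right_inv := fun y => rfl }
  rw [← Fintype.card_subtype, ← Nat.card_eq_fintype_card, Nat.card_congr e, Nat.card_prod,
    Nat.card_fin]

omit [Fintype I] in
/-- The three counting facts of one class. -/
theorem class_counts (hW : 0 < W) (v : I → Fin R → ℤ) (w : I → ℕ)
    (hw : ∀ i, 0 < w i ∧ w i ∣ W) (o : ZMod (2 * q) → C.Col × Bool) (J M : ℕ) (i : I)
    {μ p η e U : ℝ} (hμ : 0 < μ) (he : 0 ≤ e) (hη : 0 ≤ η) (hp : 0 < p) (hηp : η ≤ e * p)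
    (hηe : η ≤ e) (he1 : e ≤ 1 / 2)
    (hU : U = (2 * q * p : ℝ) * ((W / w i : ℕ) : ℝ) * ((J : ℝ) * μ))
    (hM : (1 - η) * ((J : ℝ) * μ) ≤ M) (hM' : (M : ℝ) ≤ (J : ℝ) * μ)
    (hK : |(Nat.card {B // C.Has (o B) (v i)} : ℝ) - 2 * q * p| ≤ η * (2 * q))
    (hN : ∑ᶠ B : {B // C.Has (o B) (v i)}, ∑ l ∈ Finset.range (W / w i),
          |(Nat.card {x : (Fin R → ZMod (2 * q)) × Fin W // Good C q W v w o x ∧
              StartsAt q W v w i x
                (((W : ℤ) * ((B : ZMod (2 * q)).val : ℤ) + (w i * l : ℕ) : ℤ) :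
                  ZMod (2 * q * W))} : ℝ) - μ| ≤
        η * ((2 * q : ℝ) * ((W / w i : ℕ) : ℝ) * μ))
    [Fintype (GroupCopies C q W v w o J)] [DecidableEq (St C q W o v w i)]
    [Fintype (St C q W o v w i)] :
    |(Fintype.card (St C q W o v w i) : ℝ) * M - U| ≤ 2 * e * U ∧
      |(Fintype.card (GroupCopies C q W v w o J) : ℝ) - U| ≤ 2 * e * U ∧
      ((∑ s : St C q W o v w i, ((univ.filter fun y : GroupCopies C q W v w o J =>
            startOf hW v w hw o i y.1 = s).card - M) : ℕ) : ℝ) ≤ 3 * e * U := by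
  classical
  have hJ : (0 : ℝ) ≤ J := Nat.cast_nonneg _
  have ha : 0 ≤ (J : ℝ) * μ := mul_nonneg hJ hμ.le
  have hh : (0 : ℝ) ≤ ((W / w i : ℕ) : ℝ) := Nat.cast_nonneg _
  have hV : η * ((2 * q : ℝ) * ((W / w i : ℕ) : ℝ) * ((J : ℝ) * μ)) ≤ e * U := by
    rw [hU]
    have := mul_le_mul_of_nonneg_right hηp
      (by positivity : 0 ≤ (2 * q : ℝ) * ((W / w i : ℕ) : ℝ) * ((J : ℝ) * μ))
    linarith
  rw [finsum_eq_sum_of_fintype] at hN
  simp only [← Fin.sum_univ_eq_sum_range] at hN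
  have hN' : ∑ s : St C q W o v w i,
      |(Nat.card {x : (Fin R → ZMod (2 * q)) × Fin W // Good C q W v w o x ∧
        StartsAt q W v w i x
          (((W : ℤ) * ((s.1 : ZMod (2 * q)).val : ℤ) + (w i * (s.2 : ℕ) : ℕ) : ℤ) :
            ZMod (2 * q * W))} : ℝ) - μ| ≤ η * ((2 * q : ℝ) * ((W / w i : ℕ) : ℝ) * μ) := by
    refine le_of_eq_of_le ?_ hN
    rw [← Fintype.sum_prod_type']
    exact Finset.sum_congr (Finset.ext fun s => by simp) fun s _ => rfl
  have hdev : ∑ s : St C q W o v w i, |((univ.filter fun y : GroupCopies C q W v w o J =>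
        startOf hW v w hw o i y.1 = s).card : ℝ) - (J : ℝ) * μ| ≤ e * U := by
    refine le_trans ?_ hV
    rw [show η * ((2 * q : ℝ) * ((W / w i : ℕ) : ℝ) * ((J : ℝ) * μ)) =
      (J : ℝ) * (η * ((2 * q : ℝ) * ((W / w i : ℕ) : ℝ) * μ)) by ring]
    refine le_trans (le_of_eq ?_) (mul_le_mul_of_nonneg_left hN' hJ)
    rw [Finset.mul_sum]
    refine Finset.sum_congr rfl fun s _ => ?_
    rw [card_fibre, Nat.cast_mul, mul_comm, ← mul_sub, abs_mul, abs_of_nonneg hJ]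
  obtain ⟨h1, h2⟩ := fibre_bounds
    (fun y : GroupCopies C q W v w o J => startOf hW v w hw o i y.1) ((J : ℝ) * μ) M ha hη hM hdev
  have hU0 : 0 ≤ U := by rw [hU]; positivity
  refine class_close (Nat.cast_nonneg _) ha hU0 he hηe he1 hM hM' ?_ h1 h2
  rw [hU, show (Fintype.card (St C q W o v w i) : ℝ) =
    (Nat.card {B // C.Has (o B) (v i)} : ℝ) * ((W / w i : ℕ) : ℝ) by
      rw [← Nat.card_eq_fintype_card, Nat.card_prod, Nat.card_fin, Nat.cast_mul]]
  rw [← sub_mul, ← sub_mul, abs_mul, abs_mul, abs_of_nonneg hh, abs_of_nonneg ha]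
  refine le_trans ?_ (hV.trans_eq (by rw [hU]))
  rw [show η * ((2 * q : ℝ) * ((W / w i : ℕ) : ℝ) * ((J : ℝ) * μ)) =
    η * (2 * q : ℝ) * ((W / w i : ℕ) : ℝ) * ((J : ℝ) * μ) by ring]
  gcongr

end Vale.Agent.P130.Full.Core
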