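import Mathlib
import Vale.Agent.P110.Full.Defs
import Vale.Agent.P130.Full.Core.Comb.Groups

/-!
The lines of one class: their sum is the quadratic phase of the slot, and their cells are distinct.
-/

noncomputable section

namespace Vale.Agent.P130.Full.Core

open Finset
open Vale.Agent.P110.Full (ch ch_add block_eq)

/-- The quadratic phase of a slot, in the direction of a class, is an equal-weight sum of lines. -/
theorem line_expand {R : ℕ} (v z B : Fin R → ℤ) (b : ℤ) (M n P Q m : ℕ) (hM : 0 < M) (hn : 0 < n)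
    (hQ : Q = M * n) (hP : P = m * M * n) (hm : 0 < m) (hvB : ∑ l, v l * B l = (M : ℤ) * b)
    (β : ℕ → ℝ) (k : ℤ)
    (hβ : ch ((b : ℝ) * k ^ 2 / n) =
      (Real.sqrt n : ℂ)⁻¹ * ∑ t ∈ range n, ch (β t - (t : ℝ) * k / n)) :
    ch (dot v (fun l => (B l : ℝ) * ((k : ℝ) ^ 2 / Q) - (z l : ℝ) * ((k : ℝ) / P))) =
      (Real.sqrt n : ℂ)⁻¹ * ∑ t ∈ range n,
        ch (β t - ((∑ l, v l * z l + ((m * M : ℕ) : ℤ) * (t : ℕ) : ℤ) : ℝ) * k / P) := by
  set s : ℤ := ∑ l, v l * z l with hs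
  have e1 : ∑ l, (v l : ℝ) * B l = (M : ℝ) * b := by exact_mod_cast hvB
  have hM0 : (M : ℝ) ≠ 0 := Nat.cast_ne_zero.2 hM.ne'
  have hn1 : (n : ℝ) ≠ 0 := Nat.cast_ne_zero.2 hn.ne'
  have hm1 : (m : ℝ) ≠ 0 := Nat.cast_ne_zero.2 hm.ne'
  have e3 : dot v (fun l => (B l : ℝ) * ((k : ℝ) ^ 2 / Q) - (z l : ℝ) * ((k : ℝ) / P)) =
      (∑ l, (v l : ℝ) * B l) * ((k : ℝ) ^ 2 / Q) -
        (∑ l, (v l : ℝ) * z l) * ((k : ℝ) / P) := by
    simp only [dot, Finset.sum_mul, ← Finset.sum_sub_distrib]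
    exact Finset.sum_congr rfl fun l _ => by ring
  have e2 : dot v (fun l => (B l : ℝ) * ((k : ℝ) ^ 2 / Q) - (z l : ℝ) * ((k : ℝ) / P)) =
      (b : ℝ) * (k : ℝ) ^ 2 / n + (-((s : ℝ) * k / P)) := by
    rw [e3, e1, hQ, hs]
    push_cast
    field_simp
    ring
  rw [e2, ch_add, hβ, mul_assoc, Finset.sum_mul]
  congr 1
  refine Finset.sum_congr rfl fun t _ => ?_
  rw [← ch_add]
  congr 1
  rw [hP]
  push_cast
  field_simp
  ring

/-- The cells of the lines of one class are distinct. -/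
theorem cells_inj {R q W Q M n : ℕ} [NeZero q] {G : ℕ} {S : ZMod (2 * q) → Prop} {w : ℕ}
    (hw : 0 < w) (hdvd : w ∣ W) (hn : M * n = Q)
    (v : Fin R → ℤ) (Φ : Fin G → ({B : ZMod (2 * q) // S B} × Fin (W / w)) × Fin M)
    (hΦ : Function.Injective Φ) (z : Fin G → Fin R → ℤ)
    (hzW : ∀ g, ((∑ l, v l * z g l : ℤ) : ZMod (2 * q * W)) =
      ((W * (Φ g).1.1.1.val + w * (Φ g).1.2 : ℕ) : ZMod (2 * q * W)))
    (hzM : ∀ g, ((∑ l, v l * z g l : ℤ) : ZMod M) = (((Φ g).2 : ℕ) : ZMod M))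
    (g g' : Fin G) {t t' s s' : ℕ} (ht : t < n) (ht' : t' < n) (hs : s < w) (hs' : s' < w)
    (h : ((∑ l, v l * z g l + ((2 * q * W * M : ℕ) : ℤ) * t + s : ℤ) : ZMod (2 * q * W * Q)) =
      ((∑ l, v l * z g' l + ((2 * q * W * M : ℕ) : ℤ) * t' + s' : ℤ) : ZMod (2 * q * W * Q))) :
    g = g' ∧ t = t' ∧ s = s' := by
  have hd : ∀ d : ℕ, d ∣ 2 * q * W * Q →
      ((∑ l, v l * z g l + ((2 * q * W * M : ℕ) : ℤ) * t + s : ℤ) : ZMod d) =
        ((∑ l, v l * z g' l + ((2 * q * W * M : ℕ) : ℤ) * t' + s' : ℤ) : ZMod d) := fun d hd => by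
    rw [ZMod.intCast_eq_intCast_iff_dvd_sub] at h ⊢
    exact (Int.natCast_dvd_natCast.2 hd).trans h
  have hlt : ∀ (l : Fin (W / w)) (x : ℕ), x < w → w * (l : ℕ) + x < W := fun l x hx =>
    calc w * (l : ℕ) + x < w * ((l : ℕ) + 1) := by rw [mul_add, mul_one]; omega
      _ ≤ w * (W / w) := Nat.mul_le_mul_left _ l.2
      _ = W := Nat.mul_div_cancel' hdvd
  have hW1 := hd (2 * q * W) (dvd_mul_right _ _)
  have h0 : ((2 * q * W * M : ℕ) : ZMod (2 * q * W)) = 0 :=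
    (ZMod.natCast_eq_zero_iff _ _).2 (dvd_mul_right _ _)
  simp only [Int.cast_add, Int.cast_mul, Int.cast_natCast, h0, zero_mul, add_zero, hzW] at hW1
  rw [← Nat.cast_add, ← Nat.cast_add, add_assoc, add_assoc] at hW1
  obtain ⟨hB, hx⟩ := block_eq (hlt _ _ hs) (hlt _ _ hs') hW1
  have hss : s = s' := by
    have h2 := congrArg (· % w) hx
    simpa [Nat.mul_add_mod, Nat.mod_eq_of_lt hs, Nat.mod_eq_of_lt hs'] using h2
  subst hss
  have hl : ((Φ g).1.2 : ℕ) = (Φ g').1.2 := Nat.eq_of_mul_eq_mul_left hw (by omega)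
  have hM1 := hd M (dvd_mul_of_dvd_right (hn ▸ dvd_mul_right M n) _)
  have h0' : ((2 * q * W * M : ℕ) : ZMod M) = 0 :=
    (ZMod.natCast_eq_zero_iff _ _).2 (dvd_mul_left _ _)
  simp only [Int.cast_add, Int.cast_mul, Int.cast_natCast, h0', zero_mul, add_zero, hzM,
    add_left_inj] at hM1
  rw [ZMod.natCast_eq_natCast_iff', Nat.mod_eq_of_lt (Fin.is_lt _),
    Nat.mod_eq_of_lt (Fin.is_lt _)] at hM1
  have hgg : g = g' :=
    hΦ (Prod.ext (Prod.ext (Subtype.ext hB) (Fin.ext hl)) (Fin.ext hM1))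
  subst hgg
  refine ⟨rfl, ?_, rfl⟩
  rw [ZMod.intCast_eq_intCast_iff_dvd_sub] at h
  obtain ⟨c, hc⟩ := h
  have hM0 : 0 < M := Fin.pos (Φ g).2
  have hW0 : 0 < W := lt_of_le_of_lt (Nat.zero_le _) (hlt (Φ g).1.2 s hs)
  have hq : 0 < q := NeZero.pos q
  have hP' : ((2 * q * W * M : ℕ) : ℤ) * (n : ℤ) = ((2 * q * W * Q : ℕ) : ℤ) := by
    rw [← hn]
    push_cast
    ring
  have hQ0 : ((2 * q * W * M : ℕ) : ℤ) ≠ 0 := by
    exact_mod_cast (show 2 * q * W * M ≠ 0 by positivity)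
  have h4 : ((t' : ℤ)) - t = (n : ℤ) * c := by
    apply mul_left_cancel₀ hQ0
    rw [← mul_assoc, hP', ← hc]
    ring
  have hc0 : c = 0 := by
    by_contra hne
    have h5 : (n : ℤ) ≤ |(n : ℤ) * c| := by
      rw [abs_mul, Nat.abs_cast]
      exact le_mul_of_one_le_right (by positivity) (Int.one_le_abs hne)
    rw [← h4] at h5
    rcases abs_cases ((t' : ℤ) - t) with ⟨e', -⟩ | ⟨e', -⟩ <;> omega
  rw [hc0, mul_zero, sub_eq_zero] at h4
  exact_mod_cast h4.symm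

end Vale.Agent.P130.Full.Core
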